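import Vale.Agent.P181.NR.Defs
import Vale.Agent.P181.MR.H752.Orb
import Vale.Agent.P181.H411.Seam4

set_option autoImplicit false

/-!
# P181, NR [N2]: the orbit inequality for one block
-/

open MvPolynomial

namespace Vale.Agent.P181.NR.H89

open Vale.Agent.P181.T4 (HW symP symP_apply plethMult_ge_poly)
open Vale.Agent.P181.H280 (plethMult)
open Vale.Agent.P181.SZ Vale.Agent.P181.TL

instance (m : ℕ) (σ : Type) [Fintype σ] (d : σ → ℕ) (mu : Fin m → ℕ) :
    FiniteDimensional ℂ (PK m σ d mu) :=
  Submodule.finiteDimensional_of_le (S₂ := HW m σ mu) fun _ h => h.1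

/-- Symmetric polynomials of degree `a` in each of the `n` columns. -/
theorem finrank_PK_le (n a m : ℕ) (nu : Fin m → ℕ) :
    Module.finrank ℂ (PK m (Fin n) (fun _ => a) nu) ≤ plethMult n a m nu := by
  classical
  let v := Module.finBasis ℂ (PK m (Fin n) (fun _ => a) nu)
  have hsym : ∀ i, symP n m ((v i : PK m (Fin n) (fun _ => a) nu) :
      MvPolynomial (Fin m × Fin n) ℂ) = (n.factorial : ℂ) •
        ((v i : PK m (Fin n) (fun _ => a) nu) : MvPolynomial (Fin m × Fin n) ℂ) := by
    intro i
    rw [symP_apply]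
    have h1 : ∀ s : Equiv.Perm (Fin n), rename (fun ij : Fin m × Fin n => (ij.1, s ij.2))
        ((v i : PK m (Fin n) (fun _ => a) nu) : MvPolynomial (Fin m × Fin n) ℂ) =
        ((v i : PK m (Fin n) (fun _ => a) nu) : MvPolynomial (Fin m × Fin n) ℂ) :=
      fun s => (v i).2.2.2 s fun _ => rfl
    rw [Finset.sum_congr rfl fun s _ => h1 s, Finset.sum_const, Finset.card_univ,
      Fintype.card_perm, Fintype.card_fin, ← Nat.cast_smul_eq_nsmul ℂ]
  have h := plethMult_ge_poly (b := n) (a := a) (m := m) (lam := nu)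
    (fun i => ((v i : PK m (Fin n) (fun _ => a) nu) : MvPolynomial (Fin m × Fin n) ℂ))
    (fun i => (v i).2.1) (fun i j => by
      intro d hd
      rw [T4.weight_colW]
      exact (v i).2.2.1 d hd j) (by
      have h2 : (fun i => symP n m ((v i : PK m (Fin n) (fun _ => a) nu) :
          MvPolynomial (Fin m × Fin n) ℂ)) = fun i => (n.factorial : ℂ) •
          ((v i : PK m (Fin n) (fun _ => a) nu) : MvPolynomial (Fin m × Fin n) ℂ) :=
        funext hsym
      rw [h2]
      have h3 := v.linearIndependent.map' (PK m (Fin n) (fun _ => a) nu).subtype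
        (Submodule.ker_subtype _)
      have hu : (n.factorial : ℂ) ≠ 0 := Nat.cast_ne_zero.2 (Nat.factorial_ne_zero n)
      exact h3.units_smul fun _ => Units.mk0 _ hu)
  rwa [Fintype.card_fin] at h

/-- **[N2]** -/
theorem blkS : BlkS := by
  classical
  intro m j n q l a eta hL hl
  obtain ⟨P, x, hP, hx, he⟩ := hL
  have hc : ∀ (p : Equiv.Perm (Fin n) → Prop) (I : Fintype {e : Equiv.Perm (Fin n) // p e}),
      @Fintype.card {e : Equiv.Perm (Fin n) // p e} I ≤ n.factorial := by
    intro p I
    have h1 := Fintype.card_le_of_injective (fun e : {e : Equiv.Perm (Fin n) // p e} => e.1)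
      Subtype.val_injective
    rwa [Fintype.card_perm, Fintype.card_fin] at h1
  have h := MR.H752.orbM m (Fin n) (fun _ => a - l) (fun _ => l) eta
    (fun i => if (i : ℕ) < j then q else 0) P x n.factorial hP hx
    (fun e _ => ⟨fun _ => rfl, fun h1 => he e h1⟩)
    (hc _ _)
  refine h.trans (Nat.mul_le_mul_left _ ?_)
  have e1 : (fun _ : Fin n => a - l + l) = fun _ => a := by
    funext _
    omega
  rw [e1]
  exact finrank_PK_le n a m _

end Vale.Agent.P181.NR.H89
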